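import Crest.Agent.X212.Rep70.A
import Crest.Agent.X212.Ax1.Gb
import Crest.Agent.X212.Gla92.Lf

/-!
# Row 212, GL-REP (helper70): the leaves `Dat.RepX`, `Gla92.OkX`
-/

set_option autoImplicit false
set_option linter.unusedSectionVars false
noncomputable section
open scoped Manifold ContDiff Topology InnerProductSpace
open MeasureTheory Set Function Filter

namespace Crest.Agent.X212.Rep70
open An An.Job M Nd18 Mod61 Gj67 Ax1.Gb
open Map77 (adj_closed)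

variable {Wi : Type} {X : Mf 4} {A κ lam : Type} [Fintype A] [Fintype κ] [Fintype lam]
  [DecidableEq lam] {M : Mark X A κ} {W : World M} {L : ML M lam} {Λ : Lns W L}
  {A' h : Type} [Fintype A'] [DecidableEq A'] [Fintype h] {r n : ℕ}
  {J : Job Wi Λ A' h r n} {σ : Cel A'} {a : A'}
  {U Up R : Type} [NormedAddCommGroup U] [NormedSpace ℝ U] [NormedAddCommGroup Up]
  [NormedSpace ℝ Up] [NormedAddCommGroup R] [NormedSpace ℝ R] {d : Dat J σ a U Up R}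
  {q₀ : Wi →₀ ℝ} {δ : ℝ} {k : ℕ} (H : d.OK q₀ δ)
include H

/-- the cuts do not degenerate -/
theorem cut_ok {τ : d.Ta} (i : h) (t : Tc σ a) (ht : t ∈ (d.FX τ).Q) :
    (J.cut M.c0 i).OK (J.B M.c0) (J.G M.c0 (d.s τ t)).F :=
  H.ok.ct σ H.mem _ (ov H ht).1 _ (ov H ht).2 i (by simp [Job.unc, Mark.c0, Sys.cores])

/-- the perturbations of the rows of the cuts -/
theorem rc_X {τ : d.Ta} (ok : (d.Xs τ).OK) (hk : 7 ≤ k) (q : Wi →₀ ℝ) (i : h) :
    RC k (ow ok δ) (J.cut M.c0 i) fun t => (d.εX τ q).σ t i :=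
  have := Cyl58.caps_compact W.toCaps (c := M.c0) fun _ k => k.elim
  RC.sum (o := ow ok δ) q.support fun w => rc_tm (okw ok H.δ0.le) hk (cut_ok H i)
    (g := fun t => q w * J.cc i w (d.s τ t))
    (contDiffOn_const.mul ((H.ok.cc i w).comp_contDiffOn (jl H τ δ).sm))
    fun _ ht e => H.ok.tc_in H.mem (ov H ht) (right_ne_zero_of_mul e)

variable [FiniteDimensional ℝ U]

theorem rep_X {τ : d.Ta} (ok : (d.Xs τ).OK)
    (hψ : ∀ i, d.cm.ψ0 i ∈ Hd d.Jc ((d.Xs τ).md.pp (J.B M.c0) (J.cut M.c0 i).x0))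
    (q : Wi →₀ ℝ) (k : ℕ) (hk : 7 ≤ k) : ∃ G, d.Rep δ k τ q G :=
  have := Cyl58.caps_compact W.toCaps (c := M.c0) fun _ k => k.elim
  rep_of ok H.δ0.le hk ((adj_closed (okw ok H.δ0.le)).rp (aff H ok q)) (cut_ok H)
    (rc_X H ok hk q) hψ

/-- **LEAF REP** -/
theorem repX (hk : 7 ≤ k) (hB : d.Base) : d.RepX δ k :=
  let ⟨_, hB⟩ := hB
  hB.mono fun _ b q => rep_X H b.1 b.2.2.2.2 q k hk

/-- **LEAF OKE-X** -/
theorem okX (hG : d.Geo) (hB : d.Base) : Gla92.OkX d := by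
  have := Cyl58.caps_compact W.toCaps (c := M.c0) fun _ k => k.elim
  obtain ⟨_, hB⟩ := hB
  obtain ⟨ρ, h0, _, -, hF⟩ := hG.fam
  refine ⟨ρ, h0, (hB.and hF).mono fun τ ⟨b, f⟩ => ?_⟩
  have := fun q => ok_of b.1 H.δ0.le (rep_X H b.1 b.2.2.2.2 q) f.2.1.sub
  exact ⟨fun q => (this q).1, (this 0).2⟩

end Crest.Agent.X212.Rep70
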