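import Crest.Agent.X212.Ax1.GbA
import Crest.Agent.X212.Csm97.Mod
import Crest.Agent.X212.Mon62.Inst
import Crest.Agent.X212.An.Syn

/-!
# Row 212, GL-REP (helper70): the Banach model of a side on a closed manifold exists
-/

set_option autoImplicit false
set_option linter.unusedSectionVars false
noncomputable section
open scoped Manifold ContDiff Topology InnerProductSpace
open MeasureTheory Set Function Filter

namespace Crest.Agent.X212.Rep70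
open An An.Pre Sob92 Prm93 Mod61 Map77 Ax1.Gb
open Gl67 (Sid Cm Eqn PP g0 crow)

variable {E : Type} [NormedAddCommGroup E] [NormedSpace ℝ E] [FiniteDimensional ℝ E]
  [MeasurableSpace E] [BorelSpace E]
  {HM : Type} [TopologicalSpace HM] {I : ModelWithCorners ℝ E HM} [I.Boundaryless]
  {M : Type} [TopologicalSpace M] [ChartedSpace HM M] [IsManifold I ∞ M]
  [MeasurableSpace M] [T2Space M] [BorelSpace M] [SecondCountableTopology M]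
  {ι lam h : Type} [Fintype ι] [Fintype lam] [Fintype h]
  {T : Type} [NormedAddCommGroup T] [NormedSpace ℝ T] {𝔉 : Fam I M ι lam T} {k r n m : ℕ}

section gen
variable {V W : Type} [NormedAddCommGroup V] [InnerProductSpace ℝ V] [CompleteSpace V]
  [NormedAddCommGroup W] [NormedSpace ℝ W] {F : Pre I M ι} {S : ℝ} {p : M → V →L[ℝ] V}

/-- integrals against continuous kernels -/
theorem exists_int [CompactSpace M] (hS : Sup F S) (hk : 4 ≤ k) (p : M → V →L[ℝ] V)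
    (μ : Measure M) [IsFiniteMeasureOnCompacts μ] {g : M → V →L[ℝ] W} (hg : Continuous g) :
    ∃ A : F.H k p →L[ℝ] W, ∀ w : Sec I p, A (F.toH k p w) = ∫ x, g x (w.1 x) ∂μ := by
  have hi : ∀ u : F.H k p, Integrable (fun x => g x (F.val k p u x)) μ := fun u =>
    (hg.clm_apply (continuous_val hS hk u)).integrable_of_hasCompactSupport (.of_compactSpace _)
  obtain ⟨C, hC⟩ := (isCompact_range hg).isBounded.exists_norm_le
  let L : F.H k p →ₗ[ℝ] W :=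
    { toFun := fun u => ∫ x, g x (F.val k p u x) ∂μ
      map_add' := fun u v => by
        rw [← integral_add (hi u) (hi v)]
        simp only [val_add, Pi.add_apply, map_add]
      map_smul' := fun c u => by
        rw [RingHom.id_apply, ← integral_smul]
        simp only [val_smul, Pi.smul_apply, map_smul] }
  refine ⟨L.mkContinuous (C * √|S| * μ.real univ) fun u => ?_, fun w => ?_⟩
  · refine (norm_integral_le_of_norm_le_const (C := C * (√|S| * ‖u‖)) (.of_forall fun x =>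
      ((g x).le_opNorm _).trans (mul_le_mul (hC _ ⟨x, rfl⟩) (norm_val_le hS hk u x)
        (norm_nonneg _) ((norm_nonneg _).trans (hC _ ⟨x, rfl⟩))))).trans_eq (by ring)
  · show ∫ x, g x (F.val k p (F.toH k p w) x) ∂μ = _
    rw [val_toH hS hk]

/-- functions in all Sobolev spaces are smooth -/
theorem sm_of_val (hS : Sup F S) {u : M → V} (hu : ∀ k, 7 ≤ k → ∃ y : F.H k p, F.val k p y = u) :
    Sm I u := contMDiff_infty.2 fun j =>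
  let ⟨y, e⟩ := hu (j + 7) (by omega)
  e ▸ contMDiff_val hS (by omega) y

end gen

section ref
variable {o : Ref 𝔉} {Fs : T → Fr I M ι} {e : T → PtX M ι lam r n m} {c : Cut M lam}

variable (o k c) in
/-- the perturbation of the row of a cut extends to the Banach model -/
def RC (σ : T → Pc r 𝔉.B c) : Prop := ∃ f : o.C r k → CL (c.H 𝔉.B o.m) (c.H 𝔉.B o.m),
  ContDiffOn ℝ ∞ f (o.U r k) ∧ ∀ y : Pnt o r, f (y.pt k) = σ y.t y.cfg

theorem RC.sum {W : Type} (S : Finset W) {σ : W → T → Pc r 𝔉.B c} (hσ : ∀ w, RC k o c (σ w)) :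
    RC k o c fun t x => ∑ w ∈ S, σ w t x := by
  choose f f1 f2 using hσ
  exact ⟨fun v => ∑ w ∈ S, f w v, ContDiffOn.sum fun w _ => f1 w,
    fun y => Finset.sum_congr rfl fun w _ => f2 w y⟩

theorem xi_cpt [CompactSpace M] [o.B0] (H : 𝔉.OK) (hk : 7 ≤ k) (y₀ : Pnt o r) {Ω : Set M}
    {ξ : Xi M lam r} (hξ : XiIn I Ω ξ) (x : M) : ∃ g : o.C r k → En (Fin o.m.N),
      ContDiffOn ℝ ∞ g (o.U r k) ∧ ∀ y : Pnt o r, g (y.pt k) = y.cfg.xi (𝔉.G y.t).F ξ x := by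
  have a := (Mon62.hy_compact H o).cfOK hk (hk := by omega) y₀
  have b := hξ.ok 𝔉.F0
  refine Mon62.sc_out (Csm97.sc_xi a (ξ := ξ) ?_ ?_ fun _ => x)
  · cases ξ
    exacts [trivial, Mon62.Dm.awU fun _ => b, ⟨Mon62.Dm.coU fun _ => b.1,
      Mon62.Dm.swU fun _ => b.2.2.2.1, Mon62.Dm.laU fun _ => b.2.2.2.2⟩]
  · cases ξ
    exacts [trivial, trivial, (a.js (Mon62.Dm.A0.of_cs a.h4 (fun _ => hξ.2.1.sm)
      fun _ => hξ.2.1.hcs) (Mon62.Dm.swU fun _ => b.2.2.1)).imp Or.inl]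

/-- terms on a closed manifold -/
theorem rc_tm [CompactSpace M] [o.B0] (H : 𝔉.OK) (hk : 7 ≤ k)
    (hc : ∀ t ∈ 𝔉.Q, c.OK 𝔉.B (𝔉.G t).F) {t : Tc M lam r} {g : T → ℝ}
    (hg : ContDiffOn ℝ ∞ g 𝔉.Q) (ht : ∀ s ∈ 𝔉.Q, g s ≠ 0 → ∃ Ω, XiIn I Ω t.ξ) :
    RC k o c fun s x => g s • x.tc 𝔉.B (𝔉.G s).F c t := by
  by_cases e : ∃ s ∈ 𝔉.Q, g s ≠ 0
  · obtain ⟨s, hs, e⟩ := e
    obtain ⟨Ω, hξ⟩ := ht s hs e
    obtain ⟨γ, g1, g2⟩ := xi_cpt (o := o) H hk ⟨0, 0, 0, s, zero_mem _, zero_mem _, hs⟩ hξ c.x0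
    exact Csm97.tc_model o H hc t g1 g2 hg
  · exact ⟨fun _ => 0, contDiffOn_const, fun y =>
      (smul_eq_zero_of_left (by_contra fun a => e ⟨_, y.ht, a⟩) _).symm⟩

variable (o k) in
/-- `Lc` as a linear map -/
def LL : 𝔉.F0.H (k + 1) (bd o).pC × EuclideanSpace ℂ (Fin r) × T →L[ℝ] o.C r k :=
  (fH _ _ o.P1 o.Pp ∘L .fst ℝ _ _).prod ((sH _ _ o.P1 o.Pp ∘L .fst ℝ _ _).prod (.snd ℝ _ _))

theorem LL_pw (H : 𝔉.OK) (hk : 3 ≤ k) (w : Sec I (bd o).pC) (z : EuclideanSpace ℂ (Fin r)) {t : T}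
    (ht : t ∈ 𝔉.Q) : LL k o (𝔉.F0.toH _ _ w, z, t) = (pw o H z ht w).pt k :=
  (pt_pw H hk ht w).symm

theorem sm_Rw (H : Adj 𝔉 Fs) (D : M → CL (Cf ι (Fin o.m.N)) o.m.A) :
    ContDiffOn ℝ ∞ (Rw k o Fs D) 𝔉.Q :=
  ((H.sm_RR o (sb_u0 o H.toOK)).clm_comp (sm_SH o H.toOK)).add contDiffOn_const

/-- **the model**, for equal bundles -/
theorem model (H : Adj 𝔉 (Fg 𝔉)) (he : o.Rp e) (hk : 7 ≤ k) (hO : 𝔉.Om = univ ∧ 𝔉.Om' = univ)
    {D : M → CL (Cf ι (Fin o.m.N)) o.m.A} (hD : 𝔉.F0.Cb D) (mD : Maps (bd o).pC o.Pg D)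
    {ct : h → Cut M lam} {σ : T → ∀ i, Pc r 𝔉.B (ct i)}
    (hc : ∀ i, ∀ t ∈ 𝔉.Q, (ct i).OK 𝔉.B (𝔉.G t).F) (hσ : ∀ i, RC k o (ct i) fun t => σ t i)
    {pC Pm P2 Pg} (e1 : (bd o).pC = pC) (e2 : o.Pm = Pm) (e3 : o.P2 = P2) (e4 : o.Pg = Pg) :
    ∃ (f : 𝔉.F0.H (k + 1) pC × EuclideanSpace ℂ (Fin r) × T →
        𝔉.F0.H k Pm × 𝔉.F0.H k P2 × (Fin n → ℂ) × (Fin m → ℝ))
      (a : ∀ i, 𝔉.F0.H (k + 1) pC × EuclideanSpace ℂ (Fin r) × T →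
        CL ((ct i).H 𝔉.B o.m) ((ct i).H 𝔉.B o.m))
      (g : T → 𝔉.F0.H (k + 1) pC →L[ℝ] 𝔉.F0.H k Pg),
      ContDiffOn ℝ ∞ f {v | v.2.2 ∈ 𝔉.Q} ∧ (∀ i, ContDiffOn ℝ ∞ (a i) {v | v.2.2 ∈ 𝔉.Q}) ∧
      ContDiffOn ℝ ∞ g 𝔉.Q ∧ ∀ t ∈ 𝔉.Q, ∀ w : Sec I pC,
        (∀ z W Φ, W = o.W t (fun x => fa (w.1 x)) → Φ = o.Φ0 + (fun x => fp (w.1 x)) →
          𝔉.F0.val k Pm (f (𝔉.F0.toH _ _ w, z, t)).1 = (e t).D ⟨o.m, W, Φ, z⟩ ∧
          𝔉.F0.val k P2 (f (𝔉.F0.toH _ _ w, z, t)).2.1 = (e t).C ⟨o.m, W, Φ, z⟩ ∧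
          (f (𝔉.F0.toH _ _ w, z, t)).2.2 = ((e t).S ⟨o.m, W, Φ, z⟩, (e t).R ⟨o.m, W, Φ, z⟩) ∧
          ∀ i, a i (𝔉.F0.toH _ _ w, z, t) =
            (ct i).T 𝔉.B (𝔉.G t).F o.m W - σ t i ⟨o.m, W, Φ, z⟩) ∧
        ∀ x, 𝔉.F0.val k Pg (g t (𝔉.F0.toH _ _ w)) x =
          (((bd o).d0 (𝔉.G t).F (u0 o t)).adj (𝔉.G t).F).app (𝔉.G t).F
            (fun x => SC o (𝔉.S t) x (w.1 x)) x + D x (w.1 x) := by
  subst e1 e2 e3 e4
  obtain ⟨f, f1, f2⟩ := he k hk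
  choose b b1 b2 using hσ
  choose a a1 a2 using fun i => Csm97.T_model (r := r) (k := k) o H.toOK (hc i) (by omega)
  have L := (LL (r := r) k o).contDiff (n := ∞) |>.contDiffOn (s := {v | v.2.2 ∈ 𝔉.Q})
  refine ⟨f ∘ LL k o, fun i => (fun v => a i v - b i v) ∘ LL k o, Rw k o (Fg 𝔉) D,
    f1.comp L fun _ hv => hv, fun i => ((a1 i).sub (b1 i)).comp L fun _ hv => hv, sm_Rw H D,
    fun t ht w => ⟨?_, val_Rw H ht hD mD (by omega) w⟩⟩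
  rintro z _ _ rfl rfl
  have u := f2 (pw o H.toOK z ht w)
  simp only [comp_apply, LL_pw H.toOK (by omega : 3 ≤ k) w z ht, a2, b2]
  exact ⟨u.D.trans (by rw [hO.2, indicator_univ]; rfl), u.C.trans (by rw [hO.1, indicator_univ]; rfl),
    Prod.ext u.S u.R, fun _ => rfl⟩

end ref

/-! ### sides -/

variable {U Up R : Type} [NormedAddCommGroup U] [NormedSpace ℝ U] [NormedAddCommGroup Up]
  [NormedSpace ℝ Up] [NormedAddCommGroup R] [NormedSpace ℝ R] {N : ℕ} {Jc : En (Fin N)}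
  {s : Sid 𝔉 N Jc U Up R} {c : Cm N r h R} {ct : h → Cut M lam} {ε : Eqn 𝔉 r n m ct} {δ : ℝ}

theorem crow_mem (κ : Cut M lam) (B : Base M ι lam) (F : Fr I M ι) (σ : Pc r B κ)
    (x : Cfg M ι lam r) (ψ : κ.H B x.m) : crow κ B F σ x ψ = ((κ.T B F x.m x.W - σ x) ψ).1 := by
  rw [crow, Submodule.orthogonalProjectionOnto_mem_subspace_eq_self, sub_self, add_zero]

variable [CompactSpace M] (H : s.OK) (hδ : 0 ≤ δ)

/-- the moving limit as a linear map -/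
def btL : U →ₗ[ℝ] Sec I s.bd.pC where
  toFun := bt H
  map_add' u v := Subtype.ext (funext fun x => by simp [bt])
  map_smul' a u := Subtype.ext (funext fun x => by simp [bt])

variable (δ c) in
theorem cfg_W (w : M → Cf ι (Fin N)) (q : PP T U r h N) :
    (s.cfg c w q).W = (ow H δ).W q.1 fun x => fa (w x + (bt H q.2.1).1 x) := by
  rw [Ref.W, Ref.A_eq]; simp only [map_add fa]; rfl

variable (δ c) in
theorem cfg_Φ (w : M → Cf ι (Fin N)) (q : PP T U r h N) :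
    (s.cfg c w q).Φ = (ow H δ).Φ0 + fun x => fp (w x + (bt H q.2.1).1 x) := by
  simp only [map_add, bt, s2_i1, add_zero]; rfl

variable (δ) in
theorem row_eq (t : T) (w : M → Cf ι (Fin N)) (x : M) :
    (((bd (ow H δ)).d0 (𝔉.G t).F (u0 (ow H δ) t)).adj (𝔉.G t).F).app (𝔉.G t).F
      (fun x => SC (ow H δ) (𝔉.S t) x (w x)) x + Dr s x (w x) = s.row t w x := by
  rw [u0, Ref.A_eq, Dr_apply]; rfl

include H hδ

/-- **REP** for a side -/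
theorem rep_of [FiniteDimensional ℝ U] (hk : 7 ≤ k) (he : (ow H δ).Rp ε.e)
    (hc : ∀ i, ∀ t ∈ 𝔉.Q, (ct i).OK 𝔉.B (𝔉.G t).F)
    (hσ : ∀ i, RC k (ow H δ) (ct i) fun t => ε.σ t i)
    (hψ : ∀ i, c.ψ0 i ∈ Hd Jc (s.md.pp 𝔉.B (ct i).x0)) : ∃ G, s.Rep c ε δ k G := by
  have K := okw H hδ
  obtain ⟨f, a, g, f1, a1, g1, v⟩ := model (o := ow H δ) (adj_closed K) he hk H.om (cb_Dr H hδ)
    (maps_Dr H hδ) (ct := ct) (σ := ε.σ) hc hσ (pC := s.bd.pC) (Pm := s.Pm) (P2 := s.P2)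
    (Pg := s.Pg) rfl rfl rfl rfl
  obtain ⟨P, hP⟩ := exists_int (k := k + 1) (sup0 K) (by omega) s.bd.pC 𝔉.F0.μ H.mo.1.continuous
  obtain ⟨L, hL⟩ := exists_int (k := k + 1) (sup0 K) (by omega) s.bd.pC 𝔉.F0.μ H.lo.1.continuous
  let β : U →L[ℝ] (s.Fw δ).H (k + 1) s.bd.pC :=
    LinearMap.toContinuousLinearMap ((s.Fw δ).toH (k + 1) s.bd.pC ∘ₗ btL H)
  let ψ0 : ∀ i, (ct i).H 𝔉.B s.md := fun i => ⟨c.ψ0 i, hψ i⟩
  let Λ : s.EE r ct δ k → (s.Fw δ).H (k + 1) s.bd.pC × EuclideanSpace ℂ (Fin r) × T :=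
    fun v => (v.1 + β v.2.2.1, c.z0 + v.2.2.2.1, v.2.1)
  have l1 : ContDiffOn ℝ ∞ Λ (s.dom δ k) := by fun_prop
  have l2 : ∀ i, ContDiff ℝ ∞ fun v : s.EE r ct δ k => v.2.2.2.2 i :=
    contDiff_pi.1 contDiff_snd.snd.snd.snd
  have l3 : ∀ i, ContDiff ℝ ∞ fun v : s.EE r ct δ k => (v.2.2.2.2 i : L2c (Fin N)) := fun i =>
    (Hd Jc (s.md.pp 𝔉.B (ct i).x0)).subtypeL.contDiff.comp (l2 i)
  refine ⟨fun v => ((f (Λ v), fun i => a i (Λ v) (ψ0 i + v.2.2.2.2 i),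
    fun i => ‖c.ψ0 i + v.2.2.2.2 i‖ ^ 2 - 1), g v.2.1 v.1, s.nb δ k • P v.1,
    fun i => ⟪Jc.compLpL 2 μc (c.ψ0 i), v.2.2.2.2 i⟫_ℝ, L v.1 + c.lz v.2.2.2.1), ?_,
    fun w q hq => ?_⟩
  · refine ((f1.comp l1 fun _ hv => hv).prodMk ((contDiffOn_pi.2 fun i =>
      ((a1 i).comp l1 fun _ hv => hv).clm_apply (contDiff_const.add (l2 i)).contDiffOn).prodMk
      (contDiff_pi.2 fun i => ((contDiff_const.add (l3 i)).norm_sq ℝ).sub
        contDiff_const).contDiffOn)).prodMk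
      (((g1.comp contDiff_snd.fst.contDiffOn fun _ hv => hv).clm_apply contDiffOn_fst).prodMk
      (ContDiff.contDiffOn (((P.contDiff.comp contDiff_fst).const_smul _).prodMk
        ((contDiff_pi.2 fun i => contDiff_const.inner ℝ (l3 i)).prodMk
          ((L.contDiff.comp contDiff_fst).add (c.lz.contDiff.comp contDiff_snd.snd.snd.fst))))))
  · have e : Λ (s.sp δ k w q) =
        ((s.Fw δ).toH _ _ (w + bt H q.2.1), c.z0 + q.2.2.1, q.1) :=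
      Prod.ext (map_add _ _ _).symm rfl
    obtain ⟨v1, v2, v3, v4⟩ := (v q.1 hq (w + bt H q.2.1)).1 (c.z0 + q.2.2.1)
      _ _ (cfg_W c δ H w.1 (s.emb q)) (cfg_Φ c δ H w.1 (s.emb q))
    refine ⟨funext fun x => ((v q.1 hq w).2 x).trans (row_eq δ H q.1 w.1 x),
      (congrArg (fun u => (s.Fw δ).val k _ (f u).1) e).trans v1,
      (congrArg (fun u => (s.Fw δ).val k _ (f u).2.1) e).trans v2,
      congrArg (s.nb δ k • ·) (hP w), Prod.ext ((congrArg (fun u => (f u).2.2) e).trans v3)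
        (Prod.ext (funext fun i => ?_) (Prod.ext rfl (Prod.ext rfl (congrArg (· + _) (hL w)))))⟩
    exact (congrArg (fun A : CL ((ct i).H 𝔉.B s.md) ((ct i).H 𝔉.B s.md) =>
      (A (ψ0 i + q.2.2.2 i) : L2c (Fin N))) ((congrArg (a i) e).trans (v4 i))).trans
      (crow_mem (ct i) 𝔉.B (𝔉.G q.1).F (ε.σ q.1 i) (s.cfg c w.1 (s.emb q)) (ψ0 i + q.2.2.2 i)).symm

/-- **OKE** for a side -/
theorem ok_of (hG : ∀ k, 7 ≤ k → ∃ G, s.Rep c ε δ k G) {ρ : ℝ} (hρ : Metric.closedBall 0 ρ ⊆ 𝔉.Q) :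
    (s.sd c ε).Ok ρ ∧ ∀ w ∈ Sec I s.bd.pC, ∀ t, ‖t‖ ≤ ρ → s.row t w ∈ Sec I s.Pg := by
  have S := sup0 (okw H hδ)
  have key : ∀ w ∈ Sec I s.bd.pC, ∀ q : PP T U r h N, q.1 ∈ 𝔉.Q → ∀ k, 7 ≤ k →
      ∃ y, s.Val c ε δ k w (q.1, q.2.1, q.2.2.1, 0) y := fun w hw q hq k hk =>
    let ⟨_, a⟩ := hG k hk
    ⟨_, a.val ⟨w, hw⟩ (q.1, q.2.1, q.2.2.1, 0) hq⟩
  have g : ∀ w ∈ Sec I s.bd.pC, ∀ t ∈ 𝔉.Q, Sm I (s.row t w) := fun w hw t ht =>
    sm_of_val S fun k hk => let ⟨_, a⟩ := key w hw (t, 0) ht k hk; ⟨_, a.g⟩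
  refine ⟨⟨s.sh, fun w hw q hq => ?_⟩, fun w hw t ht => ?_⟩
  · have hq' := hρ (mem_closedBall_zero_iff.2 ((norm_fst_le q).trans hq))
    exact (g w hw _ hq').prodMk_space
      ((sm_of_val S fun k hk => let ⟨_, a⟩ := key w hw q hq' k hk; ⟨_, a.D⟩).prodMk_space
      ((sm_of_val S fun k hk => let ⟨_, a⟩ := key w hw q hq' k hk; ⟨_, a.C⟩).prodMk_space
        (H.bp.1.smul contMDiff_const)))
  · have ht' := hρ (mem_closedBall_zero_iff.2 ht)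
    obtain ⟨y, a⟩ := key w hw (t, 0) ht' 7 le_rfl
    exact ⟨g w hw t ht', .of_compactSpace _, fun x => by
      have := val_proj S (by omega) y.2.1 x
      rwa [a.g] at this⟩

end Crest.Agent.X212.Rep70
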